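import Vale.Agent.N368V.Tight

/-!
# P368: parity lower bound with quantum advice, intermediate measurements and postselection
-/

namespace Vale.Agent.Results.P368.A0Adaptive

open Vale.Agent.N368V

/-- (1) For adaptive protocols of bounded depth on polynomially many qubits, with an arbitrary state
`ψ` of the ancillas and at most `exp (n^(1-δ))` sequences of measurement outcomes, (a) the parity
correlation is at most `exp (-n^(1-δ))`, and (b) postselecting on an event of probability at least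
`exp (-n^(1-δ))` gives no conditional worst-case advantage `ε`.
(2) With `2^n` sequences of outcomes, depth `0` gives parity exactly.
(3) With `n + 3` sequences of outcomes, depth `3` and ancillas in `|0⟩`, postselecting on an event
of probability `2^(-(n+1))` gives parity exactly. -/
theorem result :
    (∀ (d e : ℕ) (δ ε : ℝ), 0 < δ → 0 < ε → ∃ n₀ : ℕ, ∀ n ≥ n₀, ∀ a : ℕ, n + a ≤ n ^ e →
        ∀ ψ : State a, mass ψ = 1 → ∀ P : Protocol (n + a), P.depth ≤ d →
          (P.branches : ℝ) ≤ Real.exp ((n : ℝ) ^ (1 - δ)) →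
          |(∑ x : Fin n → Fin 2, (P.prob (input x ψ) (∑ i, x i) -
            P.prob (input x ψ) (∑ i, x i + 1))) / 2 ^ n| ≤ Real.exp (-(n : ℝ) ^ (1 - δ)) ∧
          ¬ ∀ x : Fin n → Fin 2,
            Real.exp (-(n : ℝ) ^ (1 - δ)) ≤ P.prob (input x ψ) 0 + P.prob (input x ψ) 1 ∧
            (1 / 2 + ε) * (P.prob (input x ψ) 0 + P.prob (input x ψ) 1) ≤
              P.prob (input x ψ) (∑ i, x i)) ∧
    (∀ (n a : ℕ) (ψ : State a), mass ψ = 1 → ∃ P : Protocol (n + a), P.depth = 0 ∧
        P.branches = 2 ^ n ∧ ∀ x : Fin n → Fin 2, P.prob (input x ψ) (∑ i, x i) = 1) ∧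
    (∀ n : ℕ, ∃ P : Protocol (n + (n + 1)), P.depth = 3 ∧ P.branches = n + 3 ∧
        ∀ x : Fin n → Fin 2, P.prob (input x (zeros (n + 1))) (∑ i, x i) = 1 / 2 ^ (n + 1) ∧
          P.prob (input x (zeros (n + 1))) (∑ i, x i + 1) = 0) := by
  refine ⟨fun d e δ ε hδ hε => ?_, read_all, postselect_tight⟩
  obtain ⟨n1, h1⟩ := adaptive d e δ hδ
  obtain ⟨n2, h2⟩ := postselected d e δ ε hδ hε
  exact ⟨n1 + n2, fun n hn a ha ψ hψ P hP hb =>
    ⟨h1 n (by omega) a ha ψ hψ P hP hb, h2 n (by omega) a ha ψ hψ P hP hb⟩⟩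

end Vale.Agent.Results.P368.A0Adaptive
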