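import Vale.Agent.N368.TailStmt
import Vale.Agent.N368.TailMaj

/-!
# P368: an explicit Fourier tail bound for QAC circuits; parity beyond QAC0; Majority
-/

namespace Vale.Agent.Results.P368.A0FourierTail

open Finset Vale.Agent.N368.Stmt

/-- (1) For a circuit of entangling depth at most `d` on at most `e^L` qubits, with
`K = exp (300 L^(1 - 2^(-d)) (log L)^(2^(-d)))`: the Fourier weight of the output bias at levels
`≥ t` is at most `2 exp (-t/K)`; a Boolean function computed with worst-case advantage `ε` has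
average sensitivity at most `K/ε²`; the output state is not cat-like on sets of more than `K`
qubits.
(2) At entangling depth `d`, on `exp ((log n)^γ)` qubits with `γ (1 - 2^(-d)) < 1`, the parity
correlation is at most `exp (-n^(1-δ))`.
(3) The same on polynomially many qubits up to entangling depth `log₂ log log n - O(1)`.
(4) Majority is not in QAC0. -/
theorem result :
    (∀ (n d : ℕ) (L K : ℝ) (C : Circuit n), 3 ≤ L → C.entanglingDepth ≤ d →
        (C.N : ℝ) ≤ Real.exp L →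
        K = Real.exp (300 * (L ^ (1 - (1 / 2 : ℝ) ^ d) * Real.log L ^ ((1 / 2 : ℝ) ^ d))) →
        (∀ t : ℕ, ∑ T : Finset (Fin n) with t ≤ T.card, C.coeff T ^ 2 ≤ 2 * Real.exp (-(t / K))) ∧
        (∀ (g : Bits n → Fin 2) (ε : ℝ), 0 < ε → (∀ x, 1 / 2 + ε ≤ C.prob x (g x)) →
          sens g ≤ K / ε ^ 2) ∧
        ∀ (x : Bits n) (S : Finset (Fin C.N)),
          (∑ y : Bits C.N with ∀ i ∈ S, y i = 0, ‖C.mat y (C.pad x)‖ ^ 2) *
            (∑ y : Bits C.N with ∀ i ∈ S, y i = 1, ‖C.mat y (C.pad x)‖ ^ 2) ≤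
              Real.exp (-(S.card / K))) ∧
    (∀ (d : ℕ) (γ δ : ℝ), γ * (1 - (1 / 2 : ℝ) ^ d) < 1 → 0 < δ →
        ∃ n₀ : ℕ, ∀ n ≥ n₀, ∀ C : Circuit n, C.entanglingDepth ≤ d →
          (C.N : ℝ) ≤ Real.exp (Real.log n ^ γ) →
            |C.correlation| ≤ Real.exp (-(n : ℝ) ^ (1 - δ))) ∧
    (∀ (e : ℕ) (δ : ℝ), 0 < δ → ∃ (b : ℝ) (n₀ : ℕ), ∀ n ≥ n₀, ∀ C : Circuit n, C.N ≤ n ^ e →
        b * 2 ^ C.entanglingDepth ≤ Real.log (Real.log n) →
          |C.correlation| ≤ Real.exp (-(n : ℝ) ^ (1 - δ))) ∧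
    (∀ C : ∀ n : ℕ, Circuit n, IsQAC0 C → ∀ ε : ℝ, 0 < ε → ∃ n₀ : ℕ, ∀ n ≥ n₀,
        ¬ ∀ x : Bits n, 1 / 2 + ε ≤
          (C n).prob x (if n < 2 * (univ.filter fun i => x i = 1).card then 1 else 0)) := by
  refine ⟨?_, N368.Tail.corr_quasi, N368.Tail.corr_depth, N368.Tail.not_maj⟩
  rintro n d L K C hL hd hN rfl
  exact ⟨N368.Tail.tail_bound C hL hd hN, fun g _ hε hg => N368.Tail.sens_bound C hL hd hN g hε hg,
    N368.Tail.cat_bound C hL hd hN⟩

end Vale.Agent.Results.P368.A0FourierTail
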