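import Vale.Agent.N368.Stmt
import Vale.Agent.N368.Main
import Vale.Agent.N368.Fanout

/-!
# P368: parity is not in QAC0 (Moore's parity conjecture)
-/

namespace Vale.Agent.Results.P368.A0Parity

open Vale.Agent.N368.Stmt

/-- (1) No QAC0 family computes parity with a fixed worst-case advantage.
(2) A QAC0 family misses every fixed advantage for all large input lengths.
(3) At bounded entangling depth and with polynomially many qubits the parity correlation is at
most `exp (-n^(1-δ))` for large `n`.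
(4) The fanout unitary with clean ancillas is not in QAC0. -/
theorem result :
    (¬ ∃ (C : ∀ n : ℕ, Circuit n) (ε : ℝ),
        IsQAC0 C ∧ 0 < ε ∧ ∀ n : ℕ, (C n).ComputesParity ε) ∧
    (∀ C : ∀ n : ℕ, Circuit n, IsQAC0 C → ∀ ε : ℝ, 0 < ε →
        ∃ n₀ : ℕ, ∀ n ≥ n₀, ¬ (C n).ComputesParity ε) ∧
    (∀ (d e : ℕ) (δ : ℝ), 0 < δ → ∃ n₀ : ℕ, ∀ n ≥ n₀, ∀ C : Circuit n,
        C.entanglingDepth ≤ d → C.N ≤ n ^ e →
          |C.correlation| ≤ Real.exp (-(n : ℝ) ^ (1 - δ))) ∧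
    (∀ C : ∀ n : ℕ, Circuit n, IsQAC0 C →
        ∃ n₀ : ℕ, ∀ n ≥ n₀, ¬ (C (n + 1)).ImplementsFanout) := by
  refine ⟨?_, N368.Main.eventually_not_parity, N368.Main.correlation_le, fun C hC => ?_⟩
  · rintro ⟨C, ε, hC, hε, h⟩
    obtain ⟨n0, h0⟩ := N368.Main.eventually_not_parity C hC ε hε
    exact h0 n0 le_rfl (h n0)
  · obtain ⟨n0, h⟩ := N368.Main.family_lam hC (show (0 : ℝ) < 1 / 2 by norm_num)
    refine ⟨n0, fun n hn hF => ?_⟩
    obtain ⟨d, c, h1, h2, h3⟩ := h (n + 1) (by omega)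
    exact absurd (N368.half_le_of_fanout (C (n + 1)) h1 h2 hF) (not_le.mpr h3)

end Vale.Agent.Results.P368.A0Parity
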